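import Vale.Agent.P344.Bound

namespace Vale.Agent.Results.P344.FastDFT

open Vale.Agent.P344

theorem result :
    (∀ n : ℕ, IsLeast {k : ℕ | ∃ C : Circuit n k, C.ComputesDFT} (L n)) ∧
    (∃ K : ℝ, ∀ n : ℕ, 2 ≤ n →
      (L n : ℝ) ≤ K * n * Real.logb 2 n ^ (1 - 5 / 10 ^ 8 : ℝ)) ∧
    ¬ ∃ c : ℝ, 0 < c ∧ ∃ n0 : ℕ, ∀ n : ℕ, n0 ≤ n → c * n * Real.logb 2 n ≤ (L n : ℝ) :=
  ⟨L_spec, L_bound, not_lower_bound⟩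

end Vale.Agent.Results.P344.FastDFT
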